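import Vale.Agent.P286EB.QP
import Vale.Agent.P286EL.Tw
import Vale.Agent.P286EW.Nfb
import Vale.Agent.P286E27.Nfo

/-!
# The test objects defined by the points of the charts
-/

set_option linter.all false

namespace Vale.Agent.P286EB8

open Matrix Vale.Agent.P286 Vale.Agent.P286E Vale.Agent.P286EN Vale.Agent.P286EB
open Vale.Agent.P286ER (On IsOb)
open Vale.Agent.P286ET (Ix)

noncomputable section

attribute [-instance] HahnSeries.powerSeriesAlgebra

variable {A : Type} [CommRing A] [Algebra ℂ A] {E : Ell}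

/-- The function `Θ` of the adjoint lattice. -/
def thT (e : Rt E) (G : Grp) (i : Ix) (x : A) : Ls A := if G.N = 2 then th0 E x else thM e i x

theorem thT_SL2 (e : Rt E) (i : Ix) (x : A) : thT e SL2 i x = th0 E x := if_pos rfl

theorem thT_SO3 (e : Rt E) (i : Ix) (x : A) : thT e SO3 i x = thM e i x :=
  if_neg (by decide : ¬ (3 = 2))

/-- The lattices of the charts are test objects. -/
def FAMT : Prop := ∀ (E : Ell) (e : Rt E) (G : Grp), G = SL2 ∨ G = SO3 →
  ∀ (A : Type) [CommRing A] [Algebra ℂ A] [IsReduced A] (i : Ix) (x : A) (ξ : Fin 3 → A)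
  (π : Matrix (Fin G.N) (Fin G.N) A), Pt e G i x ξ π →
  ∃ (T : ℕ × Fin 3 → Fin 3 → Ls A) (u : Aˣ), IsOb E G (FM e G i x ξ π) T ∧
    Th T = (u : A) • (if G.N = 2 then th0 E x else thM e i x)

/-! ### The scalar identities -/

theorem inv_sub (e : Rt E) {x : A} (h : IsUnit (P286EB.fv E x)) :
    (x - ea e A) * Ring.inverse (x - ea e A) = 1 := Ring.mul_inverse_cancel _ (unit_sub e h)

theorem da_def (e : Rt E) : da e A = 3 * ea e A ^ 2 + algebraMap ℂ A E.a := by
  simp only [da, ea, Rt.d, map_add, map_mul, map_pow, map_ofNat]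

theorem b_def (e : Rt E) :
    algebraMap ℂ A E.b = -(ea e A ^ 3 + algebraMap ℂ A E.a * ea e A) := by
  have h := P286EB.ea_rt (A := A) e
  rw [P286EB.fv] at h
  linear_combination h

theorem smul_lin (c p q : A) : c • (HahnSeries.C p - HahnSeries.C q * xs A : Ls A) =
    HahnSeries.C (c * p) - HahnSeries.C (c * q) * xs A := by
  rw [← C_mul, map_mul, map_mul]
  ring

/-- The function `th0` on the intersection of the charts. -/
theorem th0_kx (e : Rt E) {x : A} (h : IsUnit (P286EB.fv E x)) :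
    da e A ^ 2 • th0 E x = (x - ea e A) ^ 4 • th0 E (kx e .b .n x) := by
  have h1 := inv_sub e h
  rw [th0, th0, smul_lin, smul_lin]
  simp only [kx, P286EB.fv, b_def e, da_def]
  generalize Ring.inverse (x - ea e A) = w at h1
  generalize ea e A = z at h1
  generalize algebraMap ℂ A E.a = a
  obtain ⟨p, rfl⟩ : ∃ p, x = z + p := ⟨x - z, by ring⟩
  rw [add_sub_cancel_left] at h1 ⊢
  obtain ⟨d, rfl⟩ : ∃ d, a = d - 3 * z ^ 2 := ⟨a + 3 * z ^ 2, by ring⟩
  have e1 : p * (z + (3 * z ^ 2 + (d - 3 * z ^ 2)) * w) = p * z + d := by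
    linear_combination d * h1
  generalize z + (3 * z ^ 2 + (d - 3 * z ^ 2)) * w = y at e1
  refine congrArg₂ (fun p q : A => (HahnSeries.C p - HahnSeries.C q * xs A : Ls A)) ?_ ?_
  · linear_combination (-((p * y) ^ 3 + (p * y) ^ 2 * (p * z + d) + (p * y) * (p * z + d) ^ 2 +
      (p * z + d) ^ 3) + 2 * (d - 3 * z ^ 2) * p ^ 2 * (p * y + (p * z + d)) -
      8 * (z ^ 3 + (d - 3 * z ^ 2) * z) * p ^ 3) * e1
  · linear_combination (-4 * p * ((p * y) ^ 2 + (p * y) * (p * z + d) + (p * z + d) ^ 2) -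
      4 * (d - 3 * z ^ 2) * p ^ 3) * e1

/-- The function `thM` on the intersection of the charts. -/
theorem thM_kx (e : Rt E) {x : A} (h : IsUnit (P286EB.fv E x)) :
    da e A • thM e .n x = -(x - ea e A) • thM e .b (kx e .b .n x) := by
  have h1 := congrArg (HahnSeries.C : A →+* Ls A) (inv_sub e h)
  simp only [thM, kx, ← C_mul, map_mul, map_sub, map_neg, map_add, map_one] at h1 ⊢
  linear_combination (-(HahnSeries.C (da e A) * (xs A - HahnSeries.C (ea e A)))) * h1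

/-- The linear form `α c₀ + β c₋₂`. -/
def lf (α β : A) : Ls A →ₗ[A] A where
  toFun w := α * w.coeff 0 + β * w.coeff (-2)
  map_add' u w := by
    rw [HahnSeries.coeff_add, HahnSeries.coeff_add]
    ring
  map_smul' c w := by
    rw [HahnSeries.coeff_smul, HahnSeries.coeff_smul, RingHom.id_apply, smul_eq_mul, smul_eq_mul,
      smul_eq_mul]
    ring

theorem lf_apply (α β : A) (w : Ls A) : lf α β w = α * w.coeff 0 + β * w.coeff (-2) := rfl

theorem lf_ord (α β : A) {w : Ls A} (h : Ord 1 w) : lf α β w = 0 := by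
  rw [lf_apply, h 0 (by omega), h (-2) (by omega), mul_zero, mul_zero, add_zero]

theorem lin_zero (p q : A) : (HahnSeries.C p - HahnSeries.C q * xs A : Ls A).coeff 0 = p := by
  rw [HahnSeries.coeff_sub, C_mul, HahnSeries.coeff_smul, P286EW.coeff_C_zero, xs,
    HahnSeries.coeff_single_of_ne (by omega), smul_zero, sub_zero]

theorem lin_two (p q : A) : (HahnSeries.C p - HahnSeries.C q * xs A : Ls A).coeff (-2) = -q := by
  rw [HahnSeries.coeff_sub, C_mul, HahnSeries.coeff_smul, xs_coeff, Ord.C p (-2) (by omega),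
    smul_eq_mul, mul_one, zero_sub]

theorem th0_zero (x : A) : (th0 E x).coeff 0 =
    (3 * x ^ 2 + algebraMap ℂ A E.a) ^ 2 - 8 * x * P286EB.fv E x := lin_zero _ _

theorem th0_two (x : A) : (th0 E x).coeff (-2) = -(4 * P286EB.fv E x) := lin_two _ _

theorem thM_ne (e : Rt E) {i : Ix} (hi : i ≠ .b) (x : A) : thM e i x = xs A - HahnSeries.C x := by
  cases i
  · rfl
  · exact absurd rfl hi
  · rfl

theorem xc_two (x : A) : (xs A - HahnSeries.C x).coeff (-2) = 1 := (P286EW.ord_xc x).2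

/-- The function `th0` is unimodular. -/
theorem th0_uni (x : A) :
    ∃ l : Ls A →ₗ[A] A, l (th0 E x) = 1 ∧ ∀ w, Ord 1 w → l w = 0 := by
  have h : algebraMap ℂ A (4 * E.a ^ 3 + 27 * E.b ^ 2)⁻¹ *
      (4 * algebraMap ℂ A E.a ^ 3 + 27 * algebraMap ℂ A E.b ^ 2) = 1 := by
    have h1 := congrArg (algebraMap ℂ A) (inv_mul_cancel₀ E.disc)
    simpa only [map_mul, map_add, map_pow, map_ofNat, map_one] using h1
  have h4 : algebraMap ℂ A 4⁻¹ * 4 = 1 := by
    have h1 := congrArg (algebraMap ℂ A) (inv_mul_cancel₀ (by norm_num : (4 : ℂ) ≠ 0))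
    simpa only [map_mul, map_ofNat, map_one] using h1
  refine ⟨lf (algebraMap ℂ A (4 * E.a ^ 3 + 27 * E.b ^ 2)⁻¹ * (3 * x ^ 2 + 4 * algebraMap ℂ A E.a))
    (algebraMap ℂ A (4 * E.a ^ 3 + 27 * E.b ^ 2)⁻¹ * algebraMap ℂ A 4⁻¹ *
      (3 * x ^ 3 - 5 * algebraMap ℂ A E.a * x - 27 * algebraMap ℂ A E.b)), ?_,
    fun _ => lf_ord _ _⟩
  rw [lf_apply, th0_zero, th0_two, P286EB.fv]
  generalize algebraMap ℂ A (4 * E.a ^ 3 + 27 * E.b ^ 2)⁻¹ = k at h
  generalize algebraMap ℂ A E.a = a at h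
  generalize algebraMap ℂ A E.b = b at h
  linear_combination h - k * (3 * x ^ 3 - 5 * a * x - 27 * b) * (x ^ 3 + a * x + b) * h4

/-- The function `thM` is unimodular. -/
theorem thM_uni (e : Rt E) (i : Ix) (x : A) :
    ∃ l : Ls A →ₗ[A] A, l (thM e i x) = 1 ∧ ∀ w, Ord 1 w → l w = 0 := by
  by_cases hi : i = .b
  · subst hi
    obtain ⟨k, hk⟩ := (P286EB.da_unit (A := A) e).exists_left_inv
    refine ⟨lf k (k * ea e A), ?_, fun _ => lf_ord _ _⟩
    rw [lf_apply, P286EW.thM_zero, P286EW.thM_two]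
    linear_combination hk
  · refine ⟨lf 0 1, ?_, fun _ => lf_ord _ _⟩
    rw [lf_apply, thM_ne e hi, xc_two, zero_mul, zero_add, one_mul]

theorem thT_uni (e : Rt E) (G : Grp) (i : Ix) (x : A) : ∃ l : Ls A →ₗ[A] A,
    l (if G.N = 2 then th0 E x else thM e i x) = 1 ∧ ∀ w, Ord 1 w → l w = 0 := by
  split_ifs
  · exact th0_uni x
  · exact thM_uni e i x

/-- Unimodular series can be cancelled. -/
theorem smul_cancel {θ : Ls A} (h : ∃ l : Ls A →ₗ[A] A, l θ = 1 ∧ ∀ w, Ord 1 w → l w = 0)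
    {c d : A} (e : c • θ = d • θ) : c = d := by
  obtain ⟨l, hl, -⟩ := h
  have h1 := congrArg l e
  rwa [map_smul, map_smul, hl, smul_eq_mul, smul_eq_mul, mul_one, mul_one] at h1

/-- The point of the chart `i` lies in the chart `i`. -/
theorem eqn_unit {e : Rt E} {G : Grp} {i : Ix} {x : A} {ξ : Fin 3 → A}
    {π : Matrix (Fin G.N) (Fin G.N) A} (h : Pt e G i x ξ π) {u : A} (hu : IsUnit u) :
    IsUnit (eqn E i (u • thM e i x)) := by
  have h2 : (u • (xs A - HahnSeries.C x)).coeff (-2) = u := by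
    rw [HahnSeries.coeff_smul, xc_two, smul_eq_mul, mul_one]
  cases i
  · change IsUnit ((u • (xs A - HahnSeries.C x)).coeff (-2))
    rw [h2]
    exact hu
  · change IsUnit (fh E _)
    rw [P286EW.fh_smul, P286EW.fh_thM]
    exact (hu.pow 3).mul (((P286EB.da_unit e).pow 2).mul (h.ub rfl).1)
  · change IsUnit ((u • (xs A - HahnSeries.C x)).coeff (-2) * fh E (u • (xs A - HahnSeries.C x)))
    rw [h2, P286E27.fh_smul]
    exact hu.mul ((hu.pow 3).mul (h.un rfl)).neg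

/-! ### The adjoint lattices -/

theorem prj2 {ξ : Fin 3 → A} {π : Matrix (Fin 2) (Fin 2) A} (h : Prj SL2 ξ π) : π = 0 := by
  have h1 : π = π 0 0 • 1 := sl2_scalar h.adj
  have h2 : trace π = ((2 : ℕ) : A) - 2 := h.tr
  rw [h1, trace_smul, trace_one, Fintype.card_fin, smul_eq_mul, Nat.cast_ofNat, sub_self,
    mul_comm] at h2
  rw [h1, two_mul_eq_zero (algebraMap ℂ A) h2, zero_smul]

theorem Xm2 {e : Rt E} {i : Ix} {x : A} {ξ : Fin 3 → A} {π : Matrix (Fin 2) (Fin 2) A}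
    (h : Pt e SL2 i x ξ π) : Xm e SL2 i x ξ π = x • (1 : Matrix (Fin 2) (Fin 2) A) := by
  have h0 : ∀ j, j ≠ Ix.b → π = 0 → ea e A • π + x • (1 - π) = x • 1 := fun _ _ h1 => by
    rw [h1, smul_zero, zero_add, sub_zero]
  cases i
  · exact h0 .a (by decide) (prj2 (h.pr (by decide)))
  · change ea e A • (1 : Matrix (Fin 2) (Fin 2) A) + Ring.inverse (gv e x) • (y2 ξ * y2 ξ) = _
    rw [P286E27.ht2_sq, h.sq, fv_fac e, smul_smul, ← add_smul, mul_left_comm,
      Ring.inverse_mul_cancel _ (h.ub rfl).1, mul_one, add_sub_cancel]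
  · exact h0 .n (by decide) (prj2 (h.pr (by decide)))

theorem pi2 {e : Rt E} {i : Ix} {x : A} {ξ : Fin 3 → A} {π : Matrix (Fin 2) (Fin 2) A}
    (h : Pt e SL2 i x ξ π) (a : Matrix (Fin 2) (Fin 2) (Ls A)) : a * cm π = cm π * a := by
  by_cases hi : i = .b
  · have h1 : π = 1 := (h.ub hi).2
    rw [h1, cm_one, Matrix.mul_one, Matrix.one_mul]
  · rw [prj2 (h.pr hi), cm_zero, Matrix.mul_zero, Matrix.zero_mul]

theorem cross_of {M : Submodule A (Fin 3 → Ls A)}
    (hd : ∀ u, (∀ m ∈ M, E.Reg (u ⬝ᵥ cst A (1 : Matrix (Fin 3) (Fin 3) ℂ) *ᵥ m)) → u ∈ M)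
    (hv : ∀ m : Fin 3 → Fin 3 → Ls A, (∀ k, m k ∈ M) → E.Reg (of m).det)
    {ξ m : Fin 3 → Ls A} (hξ : ξ ∈ M) (hm : m ∈ M) : rm (io A) ξ *ᵥ m ∈ M := by
  have h1 : ξ ⨯₃ m ∈ M := hd _ fun m' hm' => by
    have h2 := hv ![m', ξ, m] fun k => by fin_cases k <;> assumption
    rw [cst_one, one_mulVec, dotProduct_comm, triple_product_eq_det]
    exact h2
  have h2 := M.smul_mem (algebraMap ℂ A Complex.I) h1
  rw [csmul] at h2
  rw [rm_mulVec]
  exact h2

theorem famt (hM : FAMM) (hV : FAMV) (hR : RED) (hA : ADU) : FAMT := by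
  intro E e G hG A _ _ _ i x ξ π h
  obtain ⟨-, -, -, -, h1, h2, ⟨v, u, h3, h4, h5⟩, -⟩ := hM E e G hG A i x ξ π h
  have h6 := hV E e G hG A i x ξ π h
  have h7 := (hR E G hG A (FM e G i x ξ π)).1 ⟨v, h3, h4⟩ h2
  rcases hG with rfl | rfl
  · obtain ⟨T, u', k1, k2, k3⟩ := hA E A x ξ h.sq
    refine ⟨T, u', ⟨⟨v, h3, h4⟩, fun w hw => h1 w hw, h2, h6, k1, fun p => ?_⟩,
      k3.trans (congrArg _ (thT_SL2 e i x).symm)⟩
    rw [FM, Xm2 h]
    exact P286EL.tw_op (pi2 h _) (k2 p)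
  · refine ⟨v, u, ⟨⟨v, h3, h4⟩, fun w hw => h1 w hw, h2, h6, h3, fun p m hm => ?_⟩,
      h5.trans (congrArg _ (thT_SO3 e i x).symm)⟩
    exact cross_of h7 h6 (h4 ▸ mem_range_lin v p) hm

end

end Vale.Agent.P286EB8
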